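import Mathlib

namespace Vale.Agent.Lib.P262.helper23

/-- A finite minimax lemma.  If for every nonnegative weight vector `ν` on the columns some row
`s` has `∑ j, ν j * g s j ≤ 0`, then some probability vector `μ` on the rows has
`∑ s, μ s * g s j ≤ 0` for every column `j` simultaneously. -/
theorem finite_minimax {S J : Type*} [Fintype S] [Nonempty S] [Fintype J] (g : S → J → ℝ)
    (h : ∀ ν : J → ℝ, (∀ j, 0 ≤ ν j) → ∃ s, ∑ j, ν j * g s j ≤ 0) :
    ∃ μ : S → ℝ, (∀ s, 0 ≤ μ s) ∧ ∑ s, μ s = 1 ∧ ∀ j, ∑ s, μ s * g s j ≤ 0 := by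
  classical
  obtain ⟨T, hT⟩ : ∃ T : (S → ℝ) →ₗ[ℝ] (J → ℝ), ∀ μ j, T μ j = ∑ s, μ s * g s j := by
    refine ⟨{ toFun := fun μ j => ∑ s, μ s * g s j, map_add' := ?_, map_smul' := ?_ },
      fun μ j => rfl⟩
    · intro μ μ'
      funext j
      simp only [Pi.add_apply, add_mul, Finset.sum_add_distrib]
    · intro c μ
      funext j
      simp only [Pi.smul_apply, smul_eq_mul, RingHom.id_apply, Finset.mul_sum, mul_assoc]
  have hTc : Continuous T := T.continuous_of_finiteDimensional
  obtain ⟨K, hK⟩ : ∃ K : Set (J → ℝ), K = T '' stdSimplex ℝ S := ⟨_, rfl⟩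
  obtain ⟨C, hC⟩ : ∃ C : Set (J → ℝ), C = {y | ∀ j, y j ≤ 0} := ⟨_, rfl⟩
  have hKconv : Convex ℝ K := by
    rw [hK]
    exact (convex_stdSimplex ℝ S).linear_image T
  have hKcomp : IsCompact K := by
    rw [hK]
    exact (isCompact_stdSimplex ℝ S).image hTc
  have hCconv : Convex ℝ C := by
    rw [hC]
    intro x hx y hy a b ha hb _ j
    have h1 := hx j
    have h2 := hy j
    simp only [Pi.add_apply, Pi.smul_apply, smul_eq_mul]
    nlinarith [mul_nonneg ha (neg_nonneg.2 h1), mul_nonneg hb (neg_nonneg.2 h2)]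
  have hCclosed : IsClosed C := by
    have e : C = ⋂ j, {y : J → ℝ | y j ≤ 0} := by
      rw [hC]
      ext y
      simp
    rw [e]
    exact isClosed_iInter (fun j => isClosed_le (continuous_apply j) continuous_const)
  by_cases hdisj : Disjoint K C
  · exfalso
    obtain ⟨f, a, b, hfa, hab, hfb⟩ :=
      geometric_hahn_banach_compact_closed hKconv hKcomp hCconv hCclosed hdisj
    have hsingle : ∀ (j : J) (c : ℝ),
        (Pi.single j c : J → ℝ) = c • (Pi.single j (1 : ℝ) : J → ℝ) := by
      intro j c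
      ext k
      by_cases hk : k = j
      · subst hk
        simp
      · simp [hk]
    have hrep : ∀ y : J → ℝ, f y = ∑ j, y j * f (Pi.single j (1 : ℝ)) := by
      intro y
      conv_lhs => rw [← Finset.univ_sum_single y]
      rw [map_sum]
      refine Finset.sum_congr rfl (fun j _ => ?_)
      rw [hsingle j (y j), map_smul, smul_eq_mul]
    have hb0 : b < 0 := by
      have h0 : (0 : J → ℝ) ∈ C := by
        rw [hC]
        intro j
        simp
      have := hfb 0 h0
      simpa using this
    have hw : ∀ j, f (Pi.single j (1 : ℝ)) ≤ 0 := by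
      intro j
      by_contra hpos
      rw [not_le] at hpos
      obtain ⟨c, hc⟩ : ∃ c : ℝ, c = (1 - b) / f (Pi.single j (1 : ℝ)) := ⟨_, rfl⟩
      have hc0 : 0 ≤ c := by
        rw [hc]
        exact div_nonneg (by linarith) hpos.le
      have hmem : (-(c • (Pi.single j (1 : ℝ) : J → ℝ))) ∈ C := by
        rw [hC]
        intro k
        by_cases hk : k = j
        · subst hk
          simp [hc0]
        · simp [hk]
      have h1 := hfb _ hmem
      rw [map_neg, map_smul, smul_eq_mul] at h1
      have h2 : c * f (Pi.single j (1 : ℝ)) = 1 - b := by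
        rw [hc]
        field_simp
      linarith
    obtain ⟨s, hs⟩ := h (fun j => -f (Pi.single j (1 : ℝ))) (fun j => neg_nonneg.2 (hw j))
    have hmemK : T (Pi.single s (1 : ℝ)) ∈ K := by
      rw [hK]
      exact Set.mem_image_of_mem T (single_mem_stdSimplex ℝ s)
    have hval : ∀ j, T (Pi.single s (1 : ℝ)) j = g s j := by
      intro j
      rw [hT]
      rw [Finset.sum_eq_single s]
      · simp
      · intro s' _ hs'
        simp [hs']
      · intro hs'
        exact absurd (Finset.mem_univ s) hs'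
    have h3 := hfa _ hmemK
    rw [hrep] at h3
    have h4 : ∑ j, T (Pi.single s (1 : ℝ)) j * f (Pi.single j (1 : ℝ)) =
        -∑ j, -f (Pi.single j (1 : ℝ)) * g s j := by
      rw [← Finset.sum_neg_distrib]
      refine Finset.sum_congr rfl (fun j _ => ?_)
      rw [hval j]
      ring
    rw [h4] at h3
    linarith
  · rw [Set.not_disjoint_iff] at hdisj
    obtain ⟨y, hyK, hyC⟩ := hdisj
    rw [hK] at hyK
    obtain ⟨μ, hμ, rfl⟩ := hyK
    rw [hC] at hyC
    refine ⟨μ, hμ.1, hμ.2, fun j => ?_⟩
    have := hyC j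
    rwa [hT] at this

end Vale.Agent.Lib.P262.helper23
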